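import Vale.Agent.P146.GoodU
import Vale.Agent.P146.SC

namespace Vale.Agent.P146

open MeasureTheory ProbabilityTheory Matrix Real Finset Filter Topology
open P150 (gm spin Cfg)

variable {ι : Type} [Fintype ι] [DecidableEq ι] {J : Type} [Fintype J] {n : ℕ} {β : ℝ}

/-- the event that the norm bound or the local law on the grid fails -/
def Bd (n : ℕ) : Set (Om n) := {x | (∃ v l, Eig (Sy x) v l ∧ 2 + (n : ℝ) ^ (-0.09 : ℝ) / 2 < |l|) ∨
  ∃ k : ℤ, |k| ≤ 3 * n ∧ ∃ z : ℂ, z.re = k * (n : ℝ) ^ (-0.58 : ℝ) ∧ z.im = (n : ℝ) ^ (-0.58 : ℝ) ∧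
    (n : ℝ) ^ (-0.09 : ℝ) < ‖ms (Sy x) z * (z + ms (Sy x) z) + 1‖}

theorem del1_spec (x : Om n) : ∃ (U : Mx n) (d : Fin n → ℝ), Uᵀ * U = 1 ∧
    Sy x * U = U * diagonal d ∧ ∀ b, Eig (Sy x) (fun i => U i b) (d b) := by
  have hH : (Sy x).IsHermitian := by
    rw [Matrix.IsHermitian, conjTranspose_eq_transpose_of_trivial]; exact Sy_symm x
  have h1 : (hH.eigenvectorUnitary : Mx n)ᵀ * (hH.eigenvectorUnitary : Mx n) = 1 := by
    rw [← conjTranspose_eq_transpose_of_trivial]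
    exact Matrix.mem_unitaryGroup_iff'.1 hH.eigenvectorUnitary.2
  have h2 : ∀ b, Sy x *ᵥ (fun i => (hH.eigenvectorUnitary : Mx n) i b) =
      hH.eigenvalues b • fun i => (hH.eigenvectorUnitary : Mx n) i b :=
    fun b => hH.mulVec_eigenvectorBasis b
  refine ⟨_, hH.eigenvalues, h1, ?_, fun b => ⟨?_, h2 b⟩⟩
  · ext i b
    rw [mul_diagonal, mul_comm]
    exact congrFun (h2 b) i
  · have := congrFun (congrFun h1 b) b
    rw [one_apply_eq] at this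
    exact this

theorem del1_core {ε t : ℝ} (hε : 0 < ε) (hε1 : ε ≤ 1 / 100) (ht : t ∈ Set.Icc (0 : ℝ) 1)
    (h1t : ε ≤ 1 - t) {S Y : Mx n} (hS : Sᵀ = S) (hY : Yᵀ = Y) {u v : Fin n → ℝ} {d l α : ℝ}
    (hu : Eig S u d) (hd : |d| ≤ 2 + ε ^ 18 / 2) (hv : Eig (t • S + √(1 - t ^ 2) • Y) v l)
    (hl : |l| ≤ 2 + ε ^ 18 / 2) {z : ℂ} (hz : z.im = ε ^ 116) (hzl : |z.re - l| ≤ ε ^ 116 / 2)
    (hα0 : 0 ≤ α) (hα : α ≤ 9 * ε ^ 40)
    (hm : ‖ms (t • S + √(1 - t ^ 2) • Y) z * (z + ms (t • S + √(1 - t ^ 2) • Y) z) + 1‖ ≤ ε ^ 18)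
    (hX : ‖Xu (t • S + √(1 - t ^ 2) • Y) u z - (√(1 - t ^ 2) : ℝ) ^ 2 *
      ms (t • S + √(1 - t ^ 2) • Y) z‖ ≤ α * √(ms (t • S + √(1 - t ^ 2) • Y) z).im + α ^ 2)
    (hw : |u ⬝ᵥ Y *ᵥ u| ≤ α ^ 2) : (u ⬝ᵥ v) ^ 2 ≤ ε ^ 110 := by
  set a := √(1 - t ^ 2) with ha
  set W := t • S + a • Y with hWe
  have hW : Wᵀ = W := by rw [hWe, transpose_add, transpose_smul, transpose_smul, hS, hY]
  have hz0 : 0 < z.im := by rw [hz]; positivity
  have hp : ∀ j k : ℕ, j < k → ε ^ k ≤ ε ^ j / 100 := fun j k h => by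
    have h1 : ε ^ k ≤ ε ^ (j + 1) := pow_le_pow_of_le_one hε.le (by linarith) h
    have h2 : 0 < ε ^ j := by positivity
    rw [pow_succ] at h1
    nlinarith
  have t2 : 0 ≤ 1 - t ^ 2 := by nlinarith [ht.1, ht.2]
  have a0 : 0 ≤ a := Real.sqrt_nonneg _
  have a1 : a ≤ 1 := Real.sqrt_le_one.2 (by nlinarith [sq_nonneg t])
  have a2 : ((a : ℝ) : ℂ) ^ 2 = 1 - (t : ℂ) ^ 2 := by
    have : a ^ 2 = 1 - t ^ 2 := Real.sq_sqrt t2
    exact_mod_cast this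
  have e18 : 0 < ε ^ 18 := by positivity
  have q1 := hp 18 116 (by norm_num)
  have q2 := hp 3 18 (by norm_num)
  have q3 := hp 18 40 (by norm_num)
  have q4 := hp 0 18 (by norm_num)
  have q5 := hp 2 18 (by norm_num)
  rw [pow_zero] at q4
  have r2 : ε ^ 2 ≤ (1 - t) ^ 2 := pow_le_pow_left₀ hε.le h1t 2
  have r3 : ε ^ 3 ≤ (1 - t) ^ 3 := pow_le_pow_left₀ hε.le h1t 3
  have r4 : ε ^ 4 ≤ (1 - t) ^ 4 := pow_le_pow_left₀ hε.le h1t 4
  have hre : |z.re| ≤ 2 + ε ^ 18 := by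
    have := abs_sub_abs_le_abs_sub z.re l
    linarith
  have hm1 : ‖ms W z‖ ≤ 1 + (1 - t) / 2 :=
    sc2 hm (ms_im hW hz0) hz0.le hre (by linarith) (by linarith [ht.1]) (by
      rw [div_pow]; linarith)
  have hs : √(ms W z).im ≤ 2 := by
    rw [Real.sqrt_le_iff]
    have := (le_abs_self _).trans (Complex.abs_im_le_norm (ms W z))
    exact ⟨by norm_num, by linarith [ht.1]⟩
  have hα1 : α ^ 2 ≤ α := by nlinarith
  have hr := (sch1 hW hz0 hu.1).1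
  have eW : u ⬝ᵥ W *ᵥ u = t * d + a * (u ⬝ᵥ Y *ᵥ u) := by
    rw [hWe, add_mulVec, smul_mulVec, smul_mulVec, hu.2, dotProduct_add, dotProduct_smul,
      dotProduct_smul, dotProduct_smul, hu.1]
    simp
  rw [eW, Complex.ofReal_add, Complex.ofReal_mul t d] at hr
  rw [a2] at hX
  have h3 := sc3 (δ := ε ^ 18) ⟨ht.1, by linarith⟩ hm hm1 (by linarith) (by
      rw [abs_mul, abs_of_nonneg a0]
      have := mul_le_of_le_one_left (abs_nonneg (u ⬝ᵥ Y *ᵥ u)) a1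
      linarith) (by
      have := mul_le_mul_of_nonneg_left hs hα0
      linarith) hr (by linarith) hz0.le (by linarith)
  have h4 := eig_le hW hz0 hv (by rw [hz]; linarith [pow_pos hε 116]) u
  have h5 : 400 / (1 - t) ^ 4 ≤ 400 / ε ^ 4 :=
    div_le_div_of_nonneg_left (by norm_num) (by positivity) r4
  have h6 : 2 * z.im * (400 / ε ^ 4) = 800 * ε ^ 112 := by rw [hz]; field_simp; norm_num
  have h7 := mul_le_mul_of_nonneg_left (h3.trans h5) (by positivity : 0 ≤ 2 * z.im)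
  have q6 := hp 110 111 (by norm_num)
  have q7 := hp 111 112 (by norm_num)
  have q8 : 0 < ε ^ 110 := by positivity
  linarith

theorem del1 : ∀ᶠ n : ℕ in atTop, ∀ t ∈ Set.Icc (0 : ℝ) 1, (n : ℝ) ^ (-0.005 : ℝ) ≤ 1 - t →
    ∀ x : Om n, x ∉ Bd n → (gm _).real {y | ¬Del x (mix (fun _ => t) (x, y)) ((n : ℝ) ^ (-0.55 : ℝ)) ∧
      mix (fun _ => t) (x, y) ∉ Bd n} ≤ 49 * n ^ 2 * exp (-(n : ℝ) ^ (0.01 : ℝ)) := by
  have hT : Tendsto (fun n : ℕ => (n : ℝ) ^ (-0.005 : ℝ)) atTop (𝓝 0) := by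
    have := (tendsto_rpow_neg_atTop (y := 0.005) (by norm_num)).comp
      (tendsto_natCast_atTop_atTop (R := ℝ))
    exact this
  filter_upwards [hT.eventually (eventually_le_nhds (by norm_num : (0 : ℝ) < 1 / 100)),
    eventually_ge_atTop 1] with n hε1 hn t ht h1t x hx
  have hN : (1 : ℝ) ≤ n := by exact_mod_cast hn
  have hN0 : (0 : ℝ) < n := by linarith
  set ε := (n : ℝ) ^ (-0.005 : ℝ) with hεe
  have hε : 0 < ε := Real.rpow_pos_of_pos hN0 _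
  have hpow : ∀ m : ℕ, (n : ℝ) ^ ((-0.005 : ℝ) * m) = ε ^ m := fun m => by
    rw [Real.rpow_mul hN0.le, Real.rpow_natCast]
  have p18 : (n : ℝ) ^ (-0.09 : ℝ) = ε ^ 18 := by rw [← hpow]; norm_num
  have p116 : (n : ℝ) ^ (-0.58 : ℝ) = ε ^ 116 := by rw [← hpow]; norm_num
  have p110 : (n : ℝ) ^ (-0.55 : ℝ) = ε ^ 110 := by rw [← hpow]; norm_num
  have p200 : (n : ℝ) = (ε ^ 200)⁻¹ := by
    rw [← hpow, ← Real.rpow_neg hN0.le]; norm_num
  have pL : (n : ℝ) ^ (0.01 : ℝ) = (ε ^ 2)⁻¹ := by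
    rw [← hpow, ← Real.rpow_neg hN0.le]; norm_num
  have hL : 1 ≤ (n : ℝ) ^ (0.01 : ℝ) := Real.one_le_rpow hN (by norm_num)
  have hle : ∀ j k : ℕ, j ≤ k → ε ^ k ≤ ε ^ j := fun j k h =>
    pow_le_pow_of_le_one hε.le (by linarith) h
  obtain ⟨U, d, hU, hUd, hE⟩ := del1_spec x
  set α := (8 * (n : ℝ) ^ (0.01 : ℝ) + 1) / √(n * ε ^ 116) with hα
  have hα2 : α = 8 * ε ^ 40 + ε ^ 42 := by
    have : (n : ℝ) * ε ^ 116 = ((ε ^ 42)⁻¹) ^ 2 := by rw [p200]; field_simp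
    rw [hα, this, Real.sqrt_sq (by positivity), pL]
    field_simp
  let zz : ℤ → ℂ := fun k => ⟨k * ε ^ 116, ε ^ 116⟩
  let G : Fin n × ℤ → Set (Om n) := fun p => {y : Om n |
    ¬(‖Xu (t • Sy x + √(1 - t ^ 2) • Sy y) (fun i => U i p.1) (zz p.2) -
      (√(1 - t ^ 2) : ℝ) ^ 2 * ms (t • Sy x + √(1 - t ^ 2) • Sy y) (zz p.2)‖ ≤
      α * √(ms (t • Sy x + √(1 - t ^ 2) • Sy y) (zz p.2)).im + α ^ 2 ∧
      |(fun i => U i p.1) ⬝ᵥ Sy y *ᵥ (fun i => U i p.1)| ≤ α ^ 2)}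
  have hG : ∀ p, (gm _).real (G p) ≤ 7 * exp (-(n : ℝ) ^ (0.01 : ℝ)) := fun p =>
    good_u (d := t * d p.1) (by rw [transpose_smul, Sy_symm])
      ⟨(hE p.1).1, by rw [smul_mulVec, (hE p.1).2, smul_smul]⟩
      ⟨Real.sqrt_nonneg _, Real.sqrt_le_one.2 (by nlinarith [sq_nonneg t])⟩
      (pow_pos hε 116) (by
        have e : (ε ^ 116) ^ 2 * (n : ℝ) = ε ^ 32 := by rw [p200]; field_simp
        have := hle 0 32 (by norm_num)
        rw [pow_zero] at this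
        exact e.trans_le this) hL hα
  have hsub : {y | ¬Del x (mix (fun _ => t) (x, y)) ((n : ℝ) ^ (-0.55 : ℝ)) ∧
      mix (fun _ => t) (x, y) ∉ Bd n} ⊆
      ⋃ p ∈ (univ : Finset (Fin n)) ×ˢ Finset.Icc (-(3 * n : ℤ)) (3 * n), G p := by
    rintro y ⟨h1, h2⟩
    by_contra hc
    simp only [Set.mem_iUnion, not_exists] at hc
    refine h1 ⟨U, d, hU, hUd, fun b v l hv => ?_⟩
    have hl : |l| ≤ 2 + ε ^ 18 / 2 := by
      rw [← p18]; exact not_lt.1 fun h => h2 (Or.inl ⟨v, l, hv, h⟩)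
    have hd : |d b| ≤ 2 + ε ^ 18 / 2 := by
      rw [← p18]; exact not_lt.1 fun h => hx (Or.inl ⟨_, _, hE b, h⟩)
    have e0 : 0 < ε ^ 116 := pow_pos hε 116
    set k := round (l / ε ^ 116) with hk
    have k1 : |l / ε ^ 116 - k| ≤ 1 / 2 := abs_sub_round _
    have k2 : |(k : ℝ) * ε ^ 116 - l| ≤ ε ^ 116 / 2 := by
      have : (k : ℝ) * ε ^ 116 - l = -(l / ε ^ 116 - k) * ε ^ 116 := by field_simp; ring
      rw [this, abs_mul, abs_neg, abs_of_pos e0]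
      nlinarith
    have k3 : |k| ≤ 3 * n := by
      have a1 : |l / ε ^ 116| ≤ 5 / 2 * n := by
        rw [abs_div, abs_of_pos e0, div_le_iff₀ e0]
        have b1 := hle 0 18 (by norm_num)
        have b2 : 1 ≤ (n : ℝ) * ε ^ 116 := by
          rw [p200, inv_mul_eq_div, le_div_iff₀ (pow_pos hε _), one_mul]
          exact hle _ _ (by norm_num)
        rw [pow_zero] at b1
        linarith
      have a2 := abs_sub_abs_le_abs_sub (k : ℝ) (l / ε ^ 116)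
      rw [abs_sub_comm] at a2
      have a3 : |(k : ℝ)| ≤ 3 * n := by linarith
      exact_mod_cast a3
    have hm := not_lt.1 fun h => h2 (Or.inr ⟨k, k3, zz k, by rw [p116], by rw [p116], h⟩)
    have hg := not_not.1 (hc (b, k) (Finset.mem_product.2 ⟨Finset.mem_univ _,
      Finset.mem_Icc.2 (abs_le.1 k3)⟩))
    rw [Sy_mix, p18] at hm
    rw [Sy_mix] at hv
    rw [p110]
    exact del1_core hε hε1 ht h1t (Sy_symm x) (Sy_symm y) (hE b) hd hv hl (z := zz k) rfl k2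
      (by rw [hα2]; positivity) (by rw [hα2]; linarith [hle 40 42 (by norm_num)]) hm hg.1 hg.2
  refine (measureReal_mono hsub (measure_ne_top _ _)).trans ((measureReal_biUnion_finset_le _ _).trans
    ((Finset.sum_le_card_nsmul _ _ _ fun p _ => hG p).trans ?_))
  have hc : ((3 * n : ℤ) + 1 - -(3 * n : ℤ)).toNat = 6 * n + 1 := by omega
  rw [Finset.card_product, Finset.card_univ, Fintype.card_fin, Int.card_Icc, hc, nsmul_eq_mul]
  push_cast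
  have := Real.exp_pos (-(n : ℝ) ^ (0.01 : ℝ))
  have h7 : (n : ℝ) * (6 * n + 1) * 7 ≤ 49 * n ^ 2 := by nlinarith
  rw [← mul_assoc]
  exact mul_le_mul_of_nonneg_right h7 this.le

end Vale.Agent.P146
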